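import Mathlib
import Vale.Agent.P101.Bridge.Central
import Vale.Agent.P095.Finite.Defs

/-!
Diagonalisation: relations invariant under every finite subset give relations invariant under all.
-/

noncomputable section

open Filter Topology
open scoped BoundedContinuousFunction

namespace Vale.Agent.P095.Finite

open Vale.Agent.P101

universe u v

/-- In a C*-algebra the elements satisfying the relations are contractions. -/
theorem norm_le_of_rel {D : Type*} [CStarAlgebra D] {c e f v r s : D} (hr : star r * r = e)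
    (hs : star s * s = f) (hc : c * star c = e * e) (hv : star v * v = 1 - e - f) :
    ∀ x ∈ [c, e, f, v, r, s], ‖x‖ ≤ 1 := by
  letI := CStarAlgebra.spectralOrder D
  have := CStarAlgebra.spectralOrderedRing D
  have he0 : 0 ≤ e := hr ▸ star_mul_self_nonneg r
  have hf0 : 0 ≤ f := hs ▸ star_mul_self_nonneg s
  have hv0 : 0 ≤ 1 - e - f := hv ▸ star_mul_self_nonneg v
  have he1 : e ≤ 1 := (le_add_of_nonneg_right hf0).trans (by rw [← sub_nonneg, ← sub_sub]; exact hv0)
  have hf1 : f ≤ 1 := (le_add_of_nonneg_left he0).trans (by rw [← sub_nonneg, ← sub_sub]; exact hv0)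
  have hu1 : (1 - e - f) ≤ 1 := by
    rw [sub_sub]; exact sub_le_self _ (add_nonneg he0 hf0)
  have hE : ‖e‖ ≤ 1 := (CStarAlgebra.norm_le_one_iff_of_nonneg e he0).2 he1
  have hF : ‖f‖ ≤ 1 := (CStarAlgebra.norm_le_one_iff_of_nonneg f hf0).2 hf1
  have hU : ‖1 - e - f‖ ≤ 1 := (CStarAlgebra.norm_le_one_iff_of_nonneg _ hv0).2 hu1
  have key : ∀ x : D, ‖star x * x‖ ≤ 1 → ‖x‖ ≤ 1 := fun x hx => by
    rw [CStarRing.norm_star_mul_self] at hx
    nlinarith [norm_nonneg x]
  intro x hx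
  simp only [List.mem_cons, List.not_mem_nil, or_false] at hx
  rcases hx with rfl | rfl | rfl | rfl | rfl | rfl
  · rw [← norm_star]
    refine key _ ?_
    rw [star_star, hc]
    exact (norm_mul_le e e).trans (by nlinarith [norm_nonneg e])
  · exact hE
  · exact hF
  · exact key _ (hv ▸ hU)
  · exact key _ (hr ▸ hE)
  · exact key _ (hs ▸ hF)

variable {A : Type u} [CStarAlgebra A]

/-- The seven relations as quantities at one index. -/
def relVals (c e f v r s : A) : List ℝ :=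
  [‖star r * r - e‖, ‖star s * s - f‖, ‖c * c‖, ‖c * star c - e * e‖, ‖star c * c - f * f‖,
    ‖star v * v - (1 - e - f)‖, ‖e * v - v‖]

/-- Approximate relations at one index. -/
def Good {G : Type v} (α : G → A ≃⋆ₐ[ℂ] A) (a : ℕ → A) (T : Finset G) (k : ℕ)
    (c e f v r s : A) : Prop :=
  (∀ z ∈ relVals c e f v r s, z < 1 / ((k : ℝ) + 1)) ∧
  ∀ x ∈ [c, e, f, v, r, s], ‖x‖ ≤ 2 ∧ (∀ t ≤ k, ‖x * a t - a t * x‖ < 1 / ((k : ℝ) + 1)) ∧
    ∀ h ∈ T, ‖α h x - x‖ < 1 / ((k : ℝ) + 1)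

theorem diag_ok : DiagStatement.{u, v} := by
  classical
  intro G _ A _ _ α ω hω hS
  obtain ⟨a, ha⟩ := TopologicalSpace.exists_dense_seq A
  obtain ⟨T, hTmono, hT⟩ : ∃ T : ℕ → Finset G, Monotone T ∧ ∀ g, ∃ k, g ∈ T k := by
    obtain ⟨i, hi⟩ := exists_injective_nat G
    exact ⟨fun k => (Finset.range k).preimage i hi.injOn,
      fun k l hkl g hg => by simp only [Finset.mem_preimage, Finset.mem_range] at hg ⊢; omega,
      fun g => ⟨i g + 1, by simp⟩⟩
  choose c e f v r s hc he hf hv hr hs h1 h2 h3 h4 h5 h6 h7 hinv using fun k => hS (T k)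
  let P : ℕ → ℕ → Prop := fun n k =>
    Good α a (T k) k (c k n) (e k n) (f k n) (v k n) (r k n) (s k n)
  have hP : ∀ k, ∀ᶠ n in (ω : Filter ℕ), P n k := by
    intro k
    have hpos : (0 : ℝ) < 1 / ((k : ℝ) + 1) := by positivity
    refine Eventually.and ?_ ?_
    · simp only [relVals, List.mem_cons, List.not_mem_nil, or_false, forall_eq_or_imp, forall_eq]
      exact ((h1 k).eventually_lt_const hpos).and (((h2 k).eventually_lt_const hpos).and
        (((h3 k).eventually_lt_const hpos).and (((h4 k).eventually_lt_const hpos).and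
        (((h5 k).eventually_lt_const hpos).and (((h6 k).eventually_lt_const hpos).and
        ((h7 k).eventually_lt_const hpos))))))
    · have hnorm : ∀ x ∈ [proj ω ⟨c k, hc k⟩, proj ω ⟨e k, he k⟩, proj ω ⟨f k, hf k⟩,
          proj ω ⟨v k, hv k⟩, proj ω ⟨r k, hr k⟩, proj ω ⟨s k, hs k⟩], ‖x‖ ≤ 1 := by
        refine norm_le_of_rel ?_ ?_ ?_ ?_
        all_goals simp only [← map_star, ← map_mul, ← map_sub, ← map_one (proj ω (A := A)),
          proj_eq_iff]
        · exact h1 k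
        · exact h2 k
        · exact h4 k
        · exact h6 k
      have hone : ∀ x : ℕ →ᵇ A, IsCentral ω x → nrm ω x ≤ 1 →
          (∀ h ∈ T k, Tendsto (fun n => ‖α h (x n) - x n‖) (ω : Filter ℕ) (𝓝 0)) →
          ∀ᶠ n in (ω : Filter ℕ), ‖x n‖ ≤ 2 ∧ (∀ t ≤ k, ‖x n * a t - a t * x n‖ < 1 / ((k : ℝ) + 1)) ∧
            ∀ h ∈ T k, ‖α h (x n) - x n‖ < 1 / ((k : ℝ) + 1) := fun x hx hn hi =>
        ((tendsto_nrm x).eventually_le_const (lt_of_le_of_lt hn one_lt_two)).and
          (((Set.finite_Iic k).eventually_all.2 fun t _ => (hx (a t)).eventually_lt_const hpos).and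
            ((Filter.eventually_all_finset (T k)).2 fun h hh => (hi h hh).eventually_lt_const hpos))
      simp only [List.mem_cons, List.not_mem_nil, or_false, forall_eq_or_imp, forall_eq]
        at hnorm ⊢
      have hi := hinv k
      simp only [List.mem_cons, List.not_mem_nil, or_false, forall_eq_or_imp, forall_eq,
        Finset.mem_coe] at hi
      exact (hone _ (hc k) hnorm.1 hi.1).and ((hone _ (he k) hnorm.2.1 hi.2.1).and
        ((hone _ (hf k) hnorm.2.2.1 hi.2.2.1).and ((hone _ (hv k) hnorm.2.2.2.1 hi.2.2.2.1).and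
        ((hone _ (hr k) hnorm.2.2.2.2.1 hi.2.2.2.2.1).and
        (hone _ (hs k) hnorm.2.2.2.2.2 hi.2.2.2.2.2)))))
  let K : ℕ → ℕ := fun n => Nat.findGreatest (P n) n
  let mk : (ℕ → ℕ →ᵇ A) → (ℕ →ᵇ A) := fun x =>
    BoundedContinuousFunction.ofNormedAddCommGroupDiscrete
      (fun n => if ‖x (K n) n‖ ≤ 2 then x (K n) n else 0) 2 fun n => by
        split_ifs with h <;> simp [h]
  have hat := tendsto_atTop_omega hω
  have hK : ∀ k, ∀ᶠ n in (ω : Filter ℕ), k ≤ K n ∧ P n (K n) := by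
    intro k
    filter_upwards [hP k, hat (eventually_ge_atTop k)] with n hn hkn
    exact ⟨Nat.le_findGreatest hkn hn, Nat.findGreatest_spec hkn hn⟩
  have hev : ∀ x : ℕ → ℕ →ᵇ A, (∀ n, P n (K n) → ‖x (K n) n‖ ≤ 2) → ∀ k,
      ∀ᶠ n in (ω : Filter ℕ), k ≤ K n ∧ P n (K n) ∧ mk x n = x (K n) n := fun x hx k =>
    (hK k).mono fun n hn => ⟨hn.1, hn.2, if_pos (hx n hn.2)⟩
  have hsm : ∀ F : ℕ → ℝ, (∀ n, 0 ≤ F n) →
      (∀ k : ℕ, ∀ᶠ n in (ω : Filter ℕ), F n ≤ 1 / ((k : ℝ) + 1)) → Tendsto F (ω : Filter ℕ) (𝓝 0) := by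
    intro F hF h
    rw [Metric.tendsto_nhds]
    intro ε hε
    obtain ⟨k, hk⟩ := exists_nat_one_div_lt hε
    filter_upwards [h k] with n hn
    rw [dist_zero_right, Real.norm_eq_abs, abs_of_nonneg (hF n)]
    exact hn.trans_lt hk
  have hsmall : ∀ {k l : ℕ}, k ≤ l → 1 / ((l : ℝ) + 1) ≤ 1 / ((k : ℝ) + 1) := fun h =>
    Nat.one_div_le_one_div h
  have hmem : ∀ n, P n (K n) → ‖c (K n) n‖ ≤ 2 ∧ ‖e (K n) n‖ ≤ 2 ∧ ‖f (K n) n‖ ≤ 2 ∧
      ‖v (K n) n‖ ≤ 2 ∧ ‖r (K n) n‖ ≤ 2 ∧ ‖s (K n) n‖ ≤ 2 := fun n hn =>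
    ⟨(hn.2 _ (by simp)).1, (hn.2 _ (by simp)).1, (hn.2 _ (by simp)).1, (hn.2 _ (by simp)).1,
      (hn.2 _ (by simp)).1, (hn.2 _ (by simp)).1⟩
  have hone : ∀ x : ℕ → ℕ →ᵇ A,
      (∀ l n, x l n ∈ [c l n, e l n, f l n, v l n, r l n, s l n]) →
      IsCentral ω (mk x) ∧ ∀ g, Tendsto (fun n => ‖α g (mk x n) - mk x n‖) (ω : Filter ℕ) (𝓝 0) := by
    intro x hx
    have hx2 : ∀ n, P n (K n) → ‖x (K n) n‖ ≤ 2 := fun n hn => (hn.2 _ (hx _ n)).1
    constructor
    · rw [isCentral_iff]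
      have hdense : ∀ t, nrm ω (mk x * cst (a t) - cst (a t) * mk x) = 0 := fun t => by
        refine (isNull_iff _).1 (hsm _ (fun n => norm_nonneg _) fun k => ?_)
        filter_upwards [hev x hx2 (max k t)] with n ⟨hn, hPn, hmk⟩
        show ‖mk x n * a t - a t * mk x n‖ ≤ _
        rw [hmk]
        exact ((hPn.2 _ (hx _ n)).2.1 t ((le_max_right k t).trans hn)).le.trans
          (hsmall ((le_max_left k t).trans hn))
      intro b
      refine congrFun (Continuous.ext_on ha ?_ continuous_const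
        (fun y ⟨t, ht⟩ => ht ▸ hdense t) : (fun b : A => nrm ω (mk x * cst b - cst b * mk x))
          = fun _ => 0) b
      exact continuous_nrm.comp (by
        have : Continuous (cst : A → ℕ →ᵇ A) :=
          (LipschitzWith.of_dist_le_mul (K := 1) fun x y => by
            simp only [NNReal.coe_one, one_mul]
            exact (BoundedContinuousFunction.dist_le dist_nonneg).2 fun _ => le_rfl).continuous
        fun_prop)
    · intro g
      obtain ⟨k₀, hk₀⟩ := hT g
      refine hsm _ (fun n => norm_nonneg _) fun k => ?_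
      filter_upwards [hev x hx2 (max k k₀)] with n ⟨hn, hPn, hmk⟩
      rw [hmk]
      exact ((hPn.2 _ (hx _ n)).2.2 g (hTmono ((le_max_right k k₀).trans hn) hk₀)).le.trans
        (hsmall ((le_max_left k k₀).trans hn))
  have hrel : ∀ R : (ℕ →ᵇ A) → (ℕ →ᵇ A) → (ℕ →ᵇ A) → (ℕ →ᵇ A) → (ℕ →ᵇ A) → (ℕ →ᵇ A) → (ℕ →ᵇ A),
      (∀ n l, mk c n = c l n → mk e n = e l n → mk f n = f l n → mk v n = v l n → mk r n = r l n →
        mk s n = s l n → ‖R (mk c) (mk e) (mk f) (mk v) (mk r) (mk s) n‖ ∈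
          relVals (c l n) (e l n) (f l n) (v l n) (r l n) (s l n)) →
      IsNull ω (R (mk c) (mk e) (mk f) (mk v) (mk r) (mk s)) := by
    intro R hR
    refine hsm _ (fun n => norm_nonneg _) fun k => ?_
    filter_upwards [hK k] with n ⟨hn, hPn⟩
    obtain ⟨m1, m2, m3, m4, m5, m6⟩ := hmem n hPn
    exact ((hPn.1 _ (hR n (K n) (if_pos m1) (if_pos m2) (if_pos m3) (if_pos m4) (if_pos m5)
      (if_pos m6))).le).trans (hsmall hn)
  refine ⟨mk c, mk e, mk f, mk v, mk r, mk s,
    (hone c fun l n => by simp).1, (hone e fun l n => by simp).1, (hone f fun l n => by simp).1,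
    (hone v fun l n => by simp).1, (hone r fun l n => by simp).1, (hone s fun l n => by simp).1,
    hrel (fun c e f v r s => star r * r - e) ?_, hrel (fun c e f v r s => star s * s - f) ?_,
    hrel (fun c e f v r s => c * c) ?_, hrel (fun c e f v r s => c * star c - e * e) ?_,
    hrel (fun c e f v r s => star c * c - f * f) ?_,
    hrel (fun c e f v r s => star v * v - (1 - e - f)) ?_, hrel (fun c e f v r s => e * v - v) ?_, ?_⟩
  iterate 7
    · intro n l m1 m2 m3 m4 m5 m6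
      simp [relVals, ← m1, ← m2, ← m3, ← m4, ← m5, ← m6]
  intro x hx g _
  simp only [List.mem_cons, List.not_mem_nil, or_false] at hx
  rcases hx with rfl | rfl | rfl | rfl | rfl | rfl
  all_goals exact (hone _ fun l n => by simp).2 g

end Vale.Agent.P095.Finite
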