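import Mathlib
import Vale.Agent.P101.Central
import Vale.Agent.P095.Finite.Defs

/-!
The action on the central sequence algebra and equivariant commuting copies.
-/

noncomputable section

open Filter Topology
open scoped BoundedContinuousFunction

namespace Vale.Agent.P095.Finite

open Vale.Agent.P101

universe u v

variable {A : Type u} [CStarAlgebra A] {ω : Ultrafilter ℕ}

/-- Pointwise application of an automorphism to a bounded sequence. -/
def seqMap (φ : A ≃⋆ₐ[ℂ] A) : (ℕ →ᵇ A) →⋆ₐ[ℂ] (ℕ →ᵇ A) where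
  toFun a := BoundedContinuousFunction.ofNormedAddCommGroupDiscrete (fun n => φ (a n)) ‖a‖ fun n =>
    (NonUnitalStarAlgHom.norm_apply_le φ (a n)).trans (a.norm_coe_le_norm n)
  map_one' := by ext n; exact map_one φ
  map_mul' a b := by ext n; exact map_mul φ (a n) (b n)
  map_zero' := by ext n; exact map_zero φ
  map_add' a b := by ext n; exact map_add φ (a n) (b n)
  commutes' z := by
    ext n
    show φ (algebraMap ℂ A z) = algebraMap ℂ A z
    rw [Algebra.algebraMap_eq_smul_one, map_smul, map_one]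
  map_star' a := by ext n; exact map_star φ (a n)

@[simp] lemma seqMap_apply (φ : A ≃⋆ₐ[ℂ] A) (a : ℕ →ᵇ A) (n : ℕ) : seqMap φ a n = φ (a n) := rfl

lemma reidx_seqMap (φ : A ≃⋆ₐ[ℂ] A) (m : ℕ → ℕ) (a : ℕ →ᵇ A) :
    reidx m (seqMap φ a) = seqMap φ (reidx m a) := rfl

lemma norm_seqMap_apply (φ : A ≃⋆ₐ[ℂ] A) (x : A) : ‖φ x‖ = ‖x‖ := by
  refine le_antisymm (NonUnitalStarAlgHom.norm_apply_le φ x) ?_
  simpa using NonUnitalStarAlgHom.norm_apply_le φ.symm (φ x)

lemma isCentral_seqMap (φ : A ≃⋆ₐ[ℂ] A) {a : ℕ →ᵇ A} (ha : IsCentral ω a) :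
    IsCentral ω (seqMap φ a) := fun b => by
  refine (ha (φ.symm b)).congr fun n => ?_
  rw [seqMap_apply, ← norm_seqMap_apply φ, map_sub, map_mul, map_mul]
  simp

/-- The automorphism on central sequences. -/
def centMap (ω : Ultrafilter ℕ) (φ : A ≃⋆ₐ[ℂ] A) : ↥(centralAlg ω A) →⋆ₐ[ℂ] ↥(centralAlg ω A) :=
  StarAlgHom.codRestrict ((seqMap φ).comp (centralAlg ω A).subtype) (centralAlg ω A)
    fun a => isCentral_seqMap φ a.2

lemma coe_centMap (φ : A ≃⋆ₐ[ℂ] A) (a : ↥(centralAlg ω A)) :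
    ((centMap ω φ a : ↥(centralAlg ω A)) : ℕ →ᵇ A) = seqMap φ (a : ℕ →ᵇ A) := rfl

lemma norm_proj_centMap (φ : A ≃⋆ₐ[ℂ] A) (a : ↥(centralAlg ω A)) :
    ‖proj ω (centMap ω φ a)‖ = ‖proj ω a‖ :=
  tendsto_nhds_unique (tendsto_nrm _) ((tendsto_nrm (ω := ω) (a : ℕ →ᵇ A)).congr fun n =>
    (norm_seqMap_apply φ ((a : ℕ →ᵇ A) n)).symm)

lemma proj_centMap_congr (φ : A ≃⋆ₐ[ℂ] A) {a b : ↥(centralAlg ω A)} (h : proj ω a = proj ω b) :
    proj ω (centMap ω φ a) = proj ω (centMap ω φ b) := by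
  rw [← sub_eq_zero, ← map_sub, ← map_sub, ← norm_eq_zero, norm_proj_centMap, map_sub, h,
    sub_self, norm_zero]

/-- The induced map of the central sequence algebra. -/
def cqFun (ω : Ultrafilter ℕ) (φ : A ≃⋆ₐ[ℂ] A) (x : CQ ω A) : CQ ω A :=
  proj ω (centMap ω φ (Function.surjInv (proj_surjective ω) x))

lemma cqFun_proj (φ : A ≃⋆ₐ[ℂ] A) (a : ↥(centralAlg ω A)) :
    cqFun ω φ (proj ω a) = proj ω (centMap ω φ a) :=
  proj_centMap_congr φ (Function.surjInv_eq (proj_surjective ω) _)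

lemma cqFun_cqFun_symm (φ : A ≃⋆ₐ[ℂ] A) (x : CQ ω A) : cqFun ω φ.symm (cqFun ω φ x) = x := by
  obtain ⟨a, rfl⟩ := proj_surjective ω x
  rw [cqFun_proj, cqFun_proj]
  congr 1
  ext n
  simp [coe_centMap]

/-- The induced automorphism of the central sequence algebra. -/
def cqAut (ω : Ultrafilter ℕ) (φ : A ≃⋆ₐ[ℂ] A) : CQ ω A ≃⋆ₐ[ℂ] CQ ω A where
  toFun := cqFun ω φ
  invFun := cqFun ω φ.symm
  left_inv := cqFun_cqFun_symm φ
  right_inv x := by simpa using cqFun_cqFun_symm φ.symm x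
  map_mul' x y := by
    obtain ⟨a, rfl⟩ := proj_surjective ω x
    obtain ⟨b, rfl⟩ := proj_surjective ω y
    rw [← map_mul, cqFun_proj, cqFun_proj, cqFun_proj, map_mul, map_mul]
  map_add' x y := by
    obtain ⟨a, rfl⟩ := proj_surjective ω x
    obtain ⟨b, rfl⟩ := proj_surjective ω y
    rw [← map_add, cqFun_proj, cqFun_proj, cqFun_proj, map_add, map_add]
  map_smul' z x := by
    obtain ⟨a, rfl⟩ := proj_surjective ω x
    rw [← map_smul, cqFun_proj, cqFun_proj, map_smul, map_smul]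
  map_star' x := by
    obtain ⟨a, rfl⟩ := proj_surjective ω x
    rw [← map_star, cqFun_proj, cqFun_proj, map_star, map_star]

lemma cqAut_proj (φ : A ≃⋆ₐ[ℂ] A) (a : ↥(centralAlg ω A)) :
    cqAut ω φ (proj ω a) = proj ω (centMap ω φ a) := cqFun_proj φ a

lemma norm_cqAut (φ : A ≃⋆ₐ[ℂ] A) (x : CQ ω A) : ‖cqAut ω φ x‖ = ‖x‖ := by
  obtain ⟨a, rfl⟩ := proj_surjective ω x
  rw [cqAut_proj, norm_proj_centMap]

lemma continuous_cqAut (φ : A ≃⋆ₐ[ℂ] A) : Continuous (cqAut ω φ) :=
  AddMonoidHomClass.continuous_of_bound (cqAut ω φ) 1 fun x => by rw [one_mul, norm_cqAut]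

lemma equivariant_closure {X E : Type*} [TopologicalSpace X] {F : X → X} (hF : Continuous F)
    (p q : E → X) (h : ∀ x, ∃ x', p x' = F (p x) ∧ q x' = F (q x)) (y z : X)
    (hyz : (y, z) ∈ closure (Set.range fun x => (p x, q x))) :
    (F y, F z) ∈ closure (Set.range fun x => (p x, q x)) := by
  refine map_mem_closure (f := fun r : X × X => (F r.1, F r.2))
    ((hF.comp continuous_fst).prodMk (hF.comp continuous_snd)) hyz ?_
  rintro _ ⟨x, rfl⟩
  obtain ⟨x', h1, h2⟩ := h x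
  exact ⟨x', Prod.ext h1 h2⟩

variable {G : Type v}

/-- The induced action. -/
def cqAct (ω : Ultrafilter ℕ) (α : G → A ≃⋆ₐ[ℂ] A) (g : G) : CQ ω A ≃⋆ₐ[ℂ] CQ ω A := cqAut ω (α g)

lemma cqAct_mul [Mul G] {α : G → A ≃⋆ₐ[ℂ] A} (hα : ∀ g h x, α (g * h) x = α g (α h x)) (g h : G)
    (x : CQ ω A) : cqAct ω α (g * h) x = cqAct ω α g (cqAct ω α h x) := by
  obtain ⟨a, rfl⟩ := proj_surjective ω x
  simp only [cqAct, cqAut_proj]
  congr 1
  ext n
  simp [coe_centMap, hα]

/-- A finite subset of the central sequence algebra lies in a closed invariant subalgebra with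
infinitely many commuting equivariant copies. -/
lemma exists_copies_equivariant [Group G] [Fintype G] {α : G → A ≃⋆ₐ[ℂ] A}
    (hα : ∀ g h x, α (g * h) x = α g (α h x))
    (hω : (ω : Filter ℕ) ≤ cofinite) [TopologicalSpace.SeparableSpace A] (G₀ : Finset (CQ ω A)) :
    ∃ (S : StarSubalgebra ℂ (CQ ω A)) (_ : IsClosed (S : Set (CQ ω A))),
      (G₀ : Set (CQ ω A)) ⊆ S ∧
      ∃ γ : G → S → S, (∀ g a, (γ g a : CQ ω A) = cqAct ω α g a) ∧
        ∃ c : Copies S (CQ ω A) ℕ, ∀ k g a, c.hom k (γ g a) = cqAct ω α g (c.hom k a) := by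
  classical
  let L₀ : Set ↥(centralAlg ω A) := Function.surjInv (proj_surjective ω) '' (G₀ : Set (CQ ω A))
  let L : Set ↥(centralAlg ω A) := L₀ ∪ ⋃ g, centMap ω (α g) '' L₀
  have hLfin : L.Finite :=
    (G₀.finite_toSet.image _).union (Set.finite_iUnion fun g => (G₀.finite_toSet.image _).image _)
  let E : StarSubalgebra ℂ ↥(centralAlg ω A) := StarAlgebra.adjoin ℂ L
  have hinv : ∀ g, ∀ x ∈ E, centMap ω (α g) x ∈ E := by
    intro g
    have hle : E ≤ E.comap (centMap ω (α g)) := StarAlgebra.adjoin_le fun x hx => by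
      refine StarAlgebra.subset_adjoin ℂ L ?_
      rcases hx with hx | hx
      · exact Or.inr (Set.mem_iUnion.2 ⟨g, x, hx, rfl⟩)
      · obtain ⟨h, y, hy, rfl⟩ := Set.mem_iUnion.1 hx
        refine Or.inr (Set.mem_iUnion.2 ⟨g * h, y, hy, ?_⟩)
        ext n
        simp [coe_centMap, hα]
    exact fun x hx => hle hx
  have hsep : TopologicalSpace.IsSeparable (E : Set ↥(centralAlg ω A)) := by
    have hfin : (L ∪ star L).Countable := (hLfin.union hLfin.star).countable
    have hc : (Submonoid.closure (L ∪ star L) : Set ↥(centralAlg ω A)).Countable := by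
      have : Countable (L ∪ star L : Set ↥(centralAlg ω A)) := hfin.to_subtype
      rw [Submonoid.closure_eq_mrange]
      exact Set.countable_range _
    have := hc.isSeparable.span (R := ℂ)
    rwa [← StarAlgebra.adjoin_eq_span] at this
  have : TopologicalSpace.SeparableSpace E := hsep.separableSpace
  obtain ⟨d, hd⟩ := TopologicalSpace.exists_dense_seq E
  obtain ⟨m, hm1, hm2, hm3⟩ := exists_index hω fun i => (d i : ↥(centralAlg ω A))
  let v : E → ℕ →ᵇ A := fun x => ((x : ↥(centralAlg ω A)) : ℕ →ᵇ A)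
  have hvc : Continuous v := continuous_subtype_val.comp continuous_subtype_val
  have hr : ∀ k (x : E), IsCentral ω (reidx (m k) (v x)) := fun k x => by
    have hcl : IsClosed {x : E | reidx (m k) (v x) ∈ centralAlg ω A} :=
      (isClosed_centralAlg ω).preimage ((continuous_reidx _).comp hvc)
    exact mem_centralAlg ω |>.1 (hd.induction_on x hcl fun i => hm1 k i)
  let Ψ : ℕ → E →⋆ₐ[ℂ] CQ ω A := fun k => (proj ω).comp
    (StarAlgHom.codRestrict ((reidxHom (m k)).comp ((centralAlg ω A).subtype.comp E.subtype))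
      (centralAlg ω A) fun x => hr k x)
  let π : E →⋆ₐ[ℂ] CQ ω A := (proj ω).comp E.subtype
  have hΨn : ∀ k x, ‖Ψ k x‖ = ‖π x‖ := fun k x => by
    refine hd.induction_on x (isClosed_eq ?_ ?_) fun i => hm2 k i
    · exact continuous_nrm.comp ((continuous_reidx _).comp hvc)
    · exact continuous_nrm.comp hvc
  have hΨc : ∀ k, Continuous (Ψ k) := fun k =>
    AddMonoidHomClass.continuous_of_bound (Ψ k) 1 fun x => by
      rw [one_mul, hΨn]
      exact nrm_le _
  have hΨcomm : ∀ j k, j ≠ k → ∀ x y, Commute (Ψ j x) (Ψ k y) := by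
    have base : ∀ j k, j < k → ∀ x y, Commute (Ψ k x) (Ψ j y) := fun j k hjk x y => by
      refine (hd.prodMap hd).induction_on (p := fun q : E × E => Commute (Ψ k q.1) (Ψ j q.2)) (x, y)
        ?_ fun q => ?_
      · exact isClosed_eq (((hΨc k).comp continuous_fst).mul ((hΨc j).comp continuous_snd))
          (((hΨc j).comp continuous_snd).mul ((hΨc k).comp continuous_fst))
      · show _ * _ = _ * _
        simp only [Prod.map]
        rw [← sub_eq_zero, ← norm_eq_zero]
        exact (isNull_iff _).1 (hm3 j k hjk q.1 q.2)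
    intro j k hjk x y
    rcases lt_or_gt_of_ne hjk with h | h
    · exact (base j k h y x).symm
    · exact base k j h x y
  let S := π.range.topologicalClosure
  have hScl : IsClosed (S : Set (CQ ω A)) := StarSubalgebra.isClosed_topologicalClosure _
  have hex : ∀ k (b : S), ∃ y : CQ ω A, ((b : CQ ω A), y) ∈
      closure (Set.range fun x : E => (π x, Ψ k x)) := by
    intro k b
    obtain ⟨u, hu, hlim⟩ := mem_closure_iff_seq_limit.1
      (show (b : CQ ω A) ∈ closure (π.range : Set (CQ ω A)) from b.2)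
    choose x hx using fun i => (mem_range_iff π).1 (hu i)
    have hcauchy : CauchySeq fun i => Ψ k (x i) := by
      have h1 := hlim.cauchySeq
      rw [Metric.cauchySeq_iff] at h1 ⊢
      intro ε hε
      obtain ⟨N, hN⟩ := h1 ε hε
      refine ⟨N, fun i hi i' hi' => ?_⟩
      rw [dist_eq_norm, ← map_sub, hΨn, map_sub, hx, hx, ← dist_eq_norm]
      exact hN i hi i' hi'
    obtain ⟨y, hy⟩ := cauchySeq_tendsto_of_complete hcauchy
    refine ⟨y, mem_closure_of_tendsto ((hlim.congr fun i => (hx i).symm).prodMk_nhds hy)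
      (Eventually.of_forall fun i => ⟨x i, rfl⟩)⟩
  let Γ : ℕ → StarSubalgebra ℂ (CQ ω A × CQ ω A) := fun k =>
    ((StarAlgHom.prod π (Ψ k)).range).topologicalClosure
  have hΓ : ∀ k (q : CQ ω A × CQ ω A), q ∈ Γ k ↔
      q ∈ closure (Set.range fun x : E => (π x, Ψ k x)) := fun k q => by
    show q ∈ closure ((StarAlgHom.prod π (Ψ k)).range : Set (CQ ω A × CQ ω A)) ↔ _
    rfl
  have hiso : ∀ k q, q ∈ Γ k → ‖q.2‖ = ‖q.1‖ := fun k q hq => by
    refine closure_minimal (t := {q : CQ ω A × CQ ω A | ‖q.2‖ = ‖q.1‖}) ?_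
      (isClosed_eq continuous_snd.norm continuous_fst.norm) ((hΓ k q).1 hq)
    rintro _ ⟨x, rfl⟩
    exact hΨn k x
  choose f hf using hex
  have huniq : ∀ k (b : S) y, ((b : CQ ω A), y) ∈ Γ k → f k b = y := by
    intro k b y hy
    have := hiso k _ ((Γ k).sub_mem ((hΓ k _).2 (hf k b)) hy)
    simpa [sub_eq_zero] using this
  let φ : ℕ → S →⋆ₐ[ℂ] CQ ω A := fun k =>
    { toFun := f k
      map_one' := huniq k 1 1 (Γ k).one_mem
      map_mul' := fun a b => huniq k _ _ ((Γ k).mul_mem ((hΓ k _).2 (hf k a)) ((hΓ k _).2 (hf k b)))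
      map_zero' := huniq k 0 0 (Γ k).zero_mem
      map_add' := fun a b => huniq k _ _ ((Γ k).add_mem ((hΓ k _).2 (hf k a)) ((hΓ k _).2 (hf k b)))
      commutes' := fun z => huniq k _ _ ((Γ k).algebraMap_mem z)
      map_star' := fun a => huniq k _ _ (star_mem ((hΓ k _).2 (hf k a))) }
  have hπE : ∀ g (x : E), cqAct ω α g (π x) = π ⟨centMap ω (α g) x, hinv g x x.2⟩ :=
    fun g x => cqAut_proj _ _
  have hΨE : ∀ k g (x : E), cqAct ω α g (Ψ k x) = Ψ k ⟨centMap ω (α g) x, hinv g x x.2⟩ :=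
    fun k g x => cqAut_proj _ _
  have hSinv : ∀ g, ∀ b ∈ S, cqAct ω α g b ∈ S := by
    intro g b hb
    refine map_mem_closure (continuous_cqAut (α g)) hb ?_
    intro y hy
    obtain ⟨x, rfl⟩ := (mem_range_iff π).1 hy
    exact (mem_range_iff π).2 ⟨_, (hπE g x).symm⟩
  refine ⟨S, hScl, ?_, fun g b => ⟨cqAct ω α g b, hSinv g b b.2⟩, fun _ _ => rfl,
    ⟨φ, fun j k hjk a b => ?_⟩, fun k g b => ?_⟩
  · intro g hg
    refine StarSubalgebra.le_topologicalClosure _ ((mem_range_iff π).2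
      ⟨⟨_, StarAlgebra.subset_adjoin ℂ L (Or.inl ⟨g, hg, rfl⟩)⟩, ?_⟩)
    exact Function.surjInv_eq (proj_surjective ω) g
  · show f j a * f k b = f k b * f j a
    have key : ∀ q ∈ closure (Set.range fun x : E => (π x, Ψ j x)),
        ∀ q' ∈ closure (Set.range fun x : E => (π x, Ψ k x)), q.2 * q'.2 = q'.2 * q.2 := by
      intro q hq q' hq'
      refine closure_minimal (t := {r : CQ ω A × CQ ω A | r.2 * q'.2 = q'.2 * r.2}) ?_
        (isClosed_eq (continuous_snd.mul continuous_const) (continuous_const.mul continuous_snd)) hq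
      rintro _ ⟨x, rfl⟩
      refine closure_minimal (s := Set.range fun x : E => (π x, Ψ k x))
        (t := {r : CQ ω A × CQ ω A | Ψ j x * r.2 = r.2 * Ψ j x}) ?_
        (isClosed_eq ((continuous_const_mul (Ψ j x)).comp continuous_snd)
          ((continuous_mul_const (Ψ j x)).comp continuous_snd)) hq'
      rintro _ ⟨y, rfl⟩
      exact hΨcomm j k hjk x y
    exact key _ (hf j a) _ (hf k b)
  · show f k _ = cqAct ω α g (f k b)
    refine huniq k _ _ ((hΓ k _).2 ?_)
    exact equivariant_closure (continuous_cqAut (α g)) (fun x : E => π x) (fun x : E => Ψ k x)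
      (fun x => ⟨⟨centMap ω (α g) x, hinv g x x.2⟩, (hπE g x).symm, (hΨE k g x).symm⟩) _ _ (hf k b)

end Vale.Agent.P095.Finite
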