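import Mathlib
import Vale.Agent.P101.Stage1
import Vale.Agent.P101.Stage2
import Vale.Agent.P101.Stage3
import Vale.Agent.P101.Stage4
import Vale.Agent.P101.Colour
import Vale.Agent.P101.Regroup
import Vale.Agent.P095.Finite.Core
import Vale.Agent.P095.Finite.Inv.Action

/-!
Finite groups: the fixed point algebra of the central sequence algebra gets the relations of the
dimension drop algebra.
-/

noncomputable section

open Filter Topology
open scoped BoundedContinuousFunction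

namespace Vale.Agent.P095.Finite

open Vale.Agent.P101

universe u v

/-- Commuting copies of an algebra with a witness give the relations. -/
theorem comparison_of_copies {B F : Type u} [CStarAlgebra B] [CStarAlgebra F] (hB : HasWitness B)
    (cB : Copies B F ℕ) : Comparison F := by
  obtain ⟨n1, k1⟩ := stage1_ok B hB
  obtain ⟨B1, _, ⟨d1⟩, ⟨c1⟩⟩ := regroup_ok B F n1 cB
  obtain ⟨n2, k2⟩ := stage2_ok B1 (k1 B1 d1)
  obtain ⟨B2, _, ⟨d2⟩, ⟨c2⟩⟩ := regroup_ok B1 F n2 c1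
  obtain ⟨n3, k3⟩ := stage3_ok B2 (k2 B2 d2)
  obtain ⟨B3, _, ⟨d3⟩, ⟨c3⟩⟩ := regroup_ok B2 F n3 c2
  obtain ⟨n4, k4⟩ := stage4_of_colour colour_ok B3 (k3 B3 d3)
  exact k4 F ⟨fun i => c3.hom i.1, fun i j h => c3.comm _ _ fun e => h (Fin.ext e)⟩

theorem isClosed_fixedAlg {G : Type v} {D : Type u} [CStarAlgebra D] (β : G → D ≃⋆ₐ[ℂ] D)
    (hβ : ∀ g, Continuous (β g)) : IsClosed (fixedAlg β : Set D) := by
  have e : (fixedAlg β : Set D) = ⋂ g, {x | β g x = x} := by
    ext x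
    simp [fixedAlg]
  rw [e]
  exact isClosed_iInter fun g => isClosed_eq (hβ g) continuous_id

variable {G : Type v} [Group G] [Fintype G] {A : Type u} [CStarAlgebra A]
  [TopologicalSpace.SeparableSpace A] {α : G → A ≃⋆ₐ[ℂ] A} {ω : Ultrafilter ℕ}

/-- The fixed point algebra has no characters. -/
theorem fixed_noChar (hα : ∀ g h x, α (g * h) x = α g (α h x)) (hω : (ω : Filter ℕ) ≤ cofinite)
    (he : IsEmpty (CentralChar ω A)) : IsEmpty (fixedAlg (cqAct ω α) →⋆ₐ[ℂ] ℂ) := by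
  have hfull : Full {x : CQ ω A | ∃ a b, a * b - b * a = x} := by
    by_contra h
    exact (isEmpty_char he).false (exists_char_of_not_full h).some
  obtain ⟨G₀, hG₀⟩ := exists_finite_witness hfull
  obtain ⟨S, hS, hsub, γ, -, c, hc⟩ := exists_copies_equivariant hα hω G₀
  obtain ⟨L, b, -, hb⟩ := hG₀ S hsub
  refine core_ok G (CQ ω A) S (cqAct ω α) (cqAct_mul hα) γ c hc
    (full_mono hb fun x hx => TwoSidedIdeal.subset_span ?_)
  obtain ⟨l, d, rfl⟩ := hx
  exact ⟨b l, d, rfl⟩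

/-- The fixed point algebra satisfies the relations. -/
theorem fixed_comparison (hα : ∀ g h x, α (g * h) x = α g (α h x))
    (hω : (ω : Filter ℕ) ≤ cofinite) (he : IsEmpty (CentralChar ω A))
    [hcl : IsClosed (fixedAlg (cqAct ω α) : Set (CQ ω A))] :
    Comparison (fixedAlg (cqAct ω α)) := by
  classical
  have hfull : Full {x : fixedAlg (cqAct ω α) | ∃ a b, a * b - b * a = x} := by
    by_contra h
    exact (fixed_noChar hα hω he).false (exists_char_of_not_full h).some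
  obtain ⟨G₁, hG₁⟩ := exists_finite_witness hfull
  obtain ⟨S, hS, hsub, γ, hγ, c, hc⟩ :=
    exists_copies_equivariant hα hω (G₁.image (Subtype.val : fixedAlg (cqAct ω α) → CQ ω A))
  let S' : StarSubalgebra ℂ (fixedAlg (cqAct ω α)) := S.comap (fixedAlg (cqAct ω α)).subtype
  have : IsClosed (S' : Set (fixedAlg (cqAct ω α))) := hS.preimage continuous_subtype_val
  let ι : S' →⋆ₐ[ℂ] S :=
    StarAlgHom.codRestrict ((fixedAlg (cqAct ω α)).subtype.comp S'.subtype) S fun x => x.2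
  have hfix : ∀ k (x : S'), c.hom k (ι x) ∈ fixedAlg (cqAct ω α) := fun k x g => by
    rw [← hc]
    congr 1
    exact Subtype.ext ((hγ g (ι x)).trans (x.1.2 g))
  let c' : Copies S' (fixedAlg (cqAct ω α)) ℕ :=
    ⟨fun k => StarAlgHom.codRestrict ((c.hom k).comp ι) (fixedAlg (cqAct ω α)) (hfix k),
      fun i j h a b => Subtype.ext (c.comm i j h (ι a) (ι b)).eq⟩
  refine comparison_of_copies (hG₁ S' fun x hx => ?_) c'
  exact hsub (Finset.mem_image_of_mem _ hx)

theorem finite_ok : FiniteStatement.{u, v} := by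
  intro G _ _ A _ _ α hα ω hω he
  have hcl : IsClosed (fixedAlg (cqAct ω α) : Set (CQ ω A)) :=
    isClosed_fixedAlg _ fun g => continuous_cqAut (α g)
  obtain ⟨c, e, f, v, r, s, h1, h2, h3, h4, h5, h6, h7⟩ := fixed_comparison hα hω he (hcl := hcl)
  obtain ⟨c₀, hc⟩ := proj_surjective ω (c : CQ ω A)
  obtain ⟨e₀, he'⟩ := proj_surjective ω (e : CQ ω A)
  obtain ⟨f₀, hf⟩ := proj_surjective ω (f : CQ ω A)
  obtain ⟨v₀, hv⟩ := proj_surjective ω (v : CQ ω A)
  obtain ⟨r₀, hr⟩ := proj_surjective ω (r : CQ ω A)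
  obtain ⟨s₀, hs⟩ := proj_surjective ω (s : CQ ω A)
  have hinv : ∀ (x : fixedAlg (cqAct ω α)) (x₀ : ↥(centralAlg ω A)), proj ω x₀ = x → ∀ g,
      Tendsto (fun n => ‖α g ((x₀ : ℕ →ᵇ A) n) - (x₀ : ℕ →ᵇ A) n‖) (ω : Filter ℕ) (𝓝 0) := by
    intro x x₀ hx g
    have h : proj ω (centMap ω (α g) x₀) = proj ω x₀ := by
      rw [← cqAut_proj, hx]
      exact x.2 g
    exact (proj_eq_iff ω _ _).1 h
  replace h1 : star (r : CQ ω A) * r = e := congrArg Subtype.val h1
  replace h2 : star (s : CQ ω A) * s = f := congrArg Subtype.val h2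
  replace h3 : (c : CQ ω A) * c = 0 := congrArg Subtype.val h3
  replace h4 : (c : CQ ω A) * star (c : CQ ω A) = e * e := congrArg Subtype.val h4
  replace h5 : star (c : CQ ω A) * c = f * f := congrArg Subtype.val h5
  replace h6 : star (v : CQ ω A) * v = 1 - e - f := congrArg Subtype.val h6
  replace h7 : (e : CQ ω A) * v = v := congrArg Subtype.val h7
  simp only [← hc, ← he', ← hf, ← hv, ← hr, ← hs, ← map_star, ← map_mul, ← map_sub,
    ← map_one (proj ω (A := A)), ← map_zero (proj ω (A := A)), proj_eq_iff] at h1 h2 h3 h4 h5 h6 h7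
  refine ⟨(c₀ : ℕ →ᵇ A), (e₀ : ℕ →ᵇ A), (f₀ : ℕ →ᵇ A), (v₀ : ℕ →ᵇ A), (r₀ : ℕ →ᵇ A),
    (s₀ : ℕ →ᵇ A), c₀.2, e₀.2, f₀.2, v₀.2, r₀.2, s₀.2, h1, h2, by simpa using h3, h4, h5, h6, h7, ?_⟩
  intro x hx g _
  simp only [List.mem_cons, List.not_mem_nil, or_false] at hx
  rcases hx with rfl | rfl | rfl | rfl | rfl | rfl
  · exact hinv c c₀ hc g
  · exact hinv e e₀ he' g
  · exact hinv f f₀ hf g
  · exact hinv v v₀ hv g
  · exact hinv r r₀ hr g
  · exact hinv s s₀ hs g

end Vale.Agent.P095.Finite
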